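import Crest.Agent.R251.K.Basic

/-!
# Row 251, K₁ part: monomial representations of dimension six

Blocks `f = {0,1}`, `n = {2,3}`, `n' = {4,5}`.  Type `A` is `X = false`, type `AZ` is `X = true`.
-/

set_option autoImplicit false

open Matrix

namespace Crest.Agent.R251

variable {R R' : Type} [CommRing R] [CommRing R']

def MR (α β : R) : Matrix (Fin 6) (Fin 6) R :=
  !![-(α * β), 0, 0, 0, 0, 0; 0, -(α ^ 4 * β ^ 2), 0, 0, 0, 0; 0, 0, 0, 1, 0, 0; 0, 0, 1, 0, 0, 0;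
    0, 0, 0, 0, 0, 1; 0, 0, 0, 0, 1, 0]

def MS (R : Type) [CommRing R] : Matrix (Fin 6) (Fin 6) R :=
  !![0, 1, 0, 0, 0, 0; 1, 0, 0, 0, 0, 0; 0, 0, -1, 0, 0, 0; 0, 0, 0, -1, 0, 0;
    0, 0, 0, 0, 0, -1; 0, 0, 0, 0, -1, 0]

def MT (R : Type) [CommRing R] : Matrix (Fin 6) (Fin 6) R :=
  !![0, 0, 1, 0, 0, 0; 0, 0, 0, 1, 0, 0; 1, 0, 0, 0, 0, 0; 0, 1, 0, 0, 0, 0;
    0, 0, 0, 0, 1, 0; 0, 0, 0, 0, 0, -1]

def MU (R : Type) [CommRing R] : Bool → Matrix (Fin 6) (Fin 6) R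
  | false => !![0, 0, 0, 0, 1, 0; 0, 0, 0, 0, 0, 1; 0, 0, 1, 0, 0, 0; 0, 0, 0, -1, 0, 0;
      1, 0, 0, 0, 0, 0; 0, -1, 0, 0, 0, 0]
  | true => !![0, 0, 0, 0, 1, 0; 0, 0, 0, 0, 0, 1; 1, 0, 0, 0, 0, 0; 0, -1, 0, 0, 0, 0;
      0, 0, 1, 0, 0, 0; 0, 0, 0, -1, 0, 0]

/-- the value of `c` -/
def MC (R : Type) [CommRing R] : Matrix (Fin 6) (Fin 6) R :=
  !![-1, 0, 0, 0, 0, 0; 0, -1, 0, 0, 0, 0; 0, 0, 0, 1, 0, 0; 0, 0, 1, 0, 0, 0;
    0, 0, 0, 0, 0, 1; 0, 0, 0, 0, 1, 0]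

/-- the value of `σ'` -/
def MSp (R : Type) [CommRing R] : Matrix (Fin 6) (Fin 6) R :=
  !![0, -1, 0, 0, 0, 0; -1, 0, 0, 0, 0, 0; 0, 0, 0, -1, 0, 0; 0, 0, -1, 0, 0, 0;
    0, 0, 0, 0, -1, 0; 0, 0, 0, 0, 0, -1]

/-- the value of `bZ` -/
def MZ (β : R) : Bool → Matrix (Fin 6) (Fin 6) R
  | false => diagonal ![1, 1, β, β ^ 2, 1, 1]
  | true => diagonal ![β, β ^ 2, 1, 1, 1, 1]

/-- the monomial representation -/
structure IsM (X : Bool) (θ : G →* Matrix (Fin 6) (Fin 6) R) (α β : R) : Prop where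
  hα : α ^ 5 = 1
  hβ : β ^ 3 = 1
  t : θ gt = MT R
  u : θ gu = MU R X
  s : θ gs = MS R
  r : θ gr = MR α β

/-- the shape of the odd powers of `MR` -/
def Mono_O (x y : R) : Matrix (Fin 6) (Fin 6) R :=
  !![x, 0, 0, 0, 0, 0; 0, y, 0, 0, 0, 0; 0, 0, 0, 1, 0, 0; 0, 0, 1, 0, 0, 0;
    0, 0, 0, 0, 0, 1; 0, 0, 0, 0, 1, 0]

theorem Mono_MR (α β : R) : MR α β = Mono_O (-(α * β)) (-(α ^ 4 * β ^ 2)) := rfl

theorem Mono_MC : MC R = Mono_O (-1) (-1) := rfl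

theorem Mono_sq (x y : R) : Mono_O x y ^ 2 = diagonal ![x ^ 2, y ^ 2, 1, 1, 1, 1] := by
  rw [sq, sq, sq]
  ext i j
  fin_cases i <;> fin_cases j <;> simp [Mono_O, Matrix.mul_apply, Fin.sum_univ_succ]

theorem Mono_even (x y : R) (n : ℕ) :
    Mono_O x y ^ (2 * n) = diagonal ![x ^ (2 * n), y ^ (2 * n), 1, 1, 1, 1] := by
  rw [pow_mul, Mono_sq, diagonal_pow, pow_mul, pow_mul]
  congr 1
  ext i
  fin_cases i <;> simp

theorem Mono_odd (x y : R) (n : ℕ) :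
    Mono_O x y ^ (2 * n + 1) = Mono_O (x ^ (2 * n + 1)) (y ^ (2 * n + 1)) := by
  rw [pow_succ, Mono_even, pow_succ, pow_succ]
  ext i j
  rw [diagonal_mul]
  fin_cases i <;> fin_cases j <;> simp [Mono_O]

theorem MR_pow_six {α β : R} (hα : α ^ 5 = 1) (hβ : β ^ 3 = 1) :
    MR α β ^ 6 = diagonal ![α, α ^ 4, 1, 1, 1, 1] := by
  refine (Mono_even _ _ 3).trans ?_
  congr 3
  · rw [neg_pow, mul_pow, pow_eq_pow_mod _ hα, pow_eq_pow_mod _ hβ]; norm_num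
  · rw [neg_pow, mul_pow, ← pow_mul, ← pow_mul, pow_eq_pow_mod _ hα, pow_eq_pow_mod _ hβ]; norm_num

theorem MR_pow_ten {α β : R} (hα : α ^ 5 = 1) (hβ : β ^ 3 = 1) :
    MR α β ^ 10 = diagonal ![β, β ^ 2, 1, 1, 1, 1] := by
  rw [Mono_MR, show 10 = 2 * 5 from rfl, Mono_even]
  congr 3
  · rw [neg_pow, mul_pow, pow_eq_pow_mod _ hα, pow_eq_pow_mod _ hβ]; norm_num
  · rw [neg_pow, mul_pow, ← pow_mul, ← pow_mul, pow_eq_pow_mod _ hα, pow_eq_pow_mod _ hβ]; norm_num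

theorem MR_pow_fifteen {α β : R} (hα : α ^ 5 = 1) (hβ : β ^ 3 = 1) : MR α β ^ 15 = MC R := by
  rw [Mono_MR, show 15 = 2 * 7 + 1 from rfl, Mono_odd, Mono_MC]
  congr 1
  · rw [neg_pow, mul_pow, pow_eq_pow_mod _ hα, pow_eq_pow_mod _ hβ]; norm_num
  · rw [neg_pow, mul_pow, ← pow_mul, ← pow_mul, pow_eq_pow_mod _ hα, pow_eq_pow_mod _ hβ]; norm_num

theorem MR_pow_eleven {α β : R} (hα : α ^ 5 = 1) (hβ : β ^ 3 = 1) : MR α β ^ 11 = MR α (β ^ 2) := by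
  rw [Mono_MR, show 11 = 2 * 5 + 1 from rfl, Mono_odd, Mono_MR]
  congr 1
  · rw [neg_pow, mul_pow, pow_eq_pow_mod _ hα, pow_eq_pow_mod _ hβ]; norm_num
  · rw [neg_pow, mul_pow, ← pow_mul, ← pow_mul, ← pow_mul, pow_eq_pow_mod _ hα,
      pow_eq_pow_mod _ hβ, pow_eq_pow_mod (2 * 2) hβ]
    norm_num

theorem Mono_TT : MT R * MT R = 1 := by
  ext i j
  fin_cases i <;> fin_cases j <;> simp [MT, Matrix.mul_apply, Fin.sum_univ_succ]

theorem Mono_SS : MS R * MS R = 1 := by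
  ext i j
  fin_cases i <;> fin_cases j <;> simp [MS, Matrix.mul_apply, Fin.sum_univ_succ]

theorem Mono_UU (X : Bool) : MU R X * (MU R X)ᵀ = 1 := by
  ext i j
  cases X <;> fin_cases i <;> fin_cases j <;> simp [MU, Matrix.mul_apply, Fin.sum_univ_succ]

theorem Mono_SO {x y : R} (h : x * y = 1) : MS R * Mono_O x y * MS R * Mono_O x y = 1 := by
  have e : MS R * Mono_O x y * MS R = Mono_O y x := by
    ext i j
    fin_cases i <;> fin_cases j <;> simp [MS, Mono_O, Matrix.mul_apply, Fin.sum_univ_succ]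
  have h' : y * x = 1 := by rw [mul_comm, h]
  rw [e]
  ext i j
  fin_cases i <;> fin_cases j <;> simp [Mono_O, Matrix.mul_apply, Fin.sum_univ_succ, h, h']

theorem Mono_TS : MT R * MS R = MC R * MT R := by
  ext i j
  fin_cases i <;> fin_cases j <;> simp [MT, MS, MC, Matrix.mul_apply, Fin.sum_univ_succ]

theorem Mono_SC : MS R * MC R = MSp R := by
  ext i j
  fin_cases i <;> fin_cases j <;> simp [MS, MC, MSp, Matrix.mul_apply, Fin.sum_univ_succ]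

theorem Mono_USp (X : Bool) : MU R X * MSp R = MC R * MU R X := by
  ext i j
  cases X <;> fin_cases i <;> fin_cases j <;>
    simp [MU, MC, MSp, Matrix.mul_apply, Fin.sum_univ_succ]

theorem Mono_TDT (x y : R) :
    MT R * diagonal ![x, y, 1, 1, 1, 1] * MT R = diagonal ![1, 1, x, y, 1, 1] := by
  ext i j
  rw [Matrix.mul_apply]
  simp only [mul_diagonal]
  fin_cases i <;> fin_cases j <;> simp [MT, Fin.sum_univ_succ]

theorem Mono_SD (x y : R) :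
    MS R * diagonal ![1, 1, x, y, 1, 1] = diagonal ![1, 1, x, y, 1, 1] * MS R := by
  ext i j
  rw [mul_diagonal, diagonal_mul]
  fin_cases i <;> fin_cases j <;> simp [MS]

theorem Mono_UDU (X : Bool) (β : R) :
    (MU R X)ᵀ * diagonal ![1, 1, β, β ^ 2, 1, 1] * MU R X = MZ β X := by
  ext i j
  rw [Matrix.mul_apply]
  simp only [mul_diagonal]
  cases X <;> fin_cases i <;> fin_cases j <;> simp [MU, MZ, Fin.sum_univ_succ]

theorem exists_isM (X : Bool) {α β : R} (hα : α ^ 5 = 1) (hβ : β ^ 3 = 1) : ∃ θ, IsM X θ α β := by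
  have h : RD (MT R) (MT R) (MU R X) (MU R X)ᵀ (MS R) (MR α β) := by
    refine ⟨Mono_TT, Mono_TT, Mono_UU X, mul_eq_one_comm.1 (Mono_UU X), ?_, Mono_SS, ?_, ?_, ?_,
      ?_, ?_⟩
    · rw [show 30 = 15 * 2 from rfl, pow_mul, MR_pow_fifteen hα hβ, Mono_MC, Mono_sq,
        ← diagonal_one]
      congr 1
      ext i
      fin_cases i <;> simp
    · rw [Mono_MR]
      refine Mono_SO ?_
      linear_combination β ^ 3 * hα + hβ
    · rw [MR_pow_fifteen hα hβ, Mono_TS]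
    · rw [MR_pow_fifteen hα hβ, Mono_SC, Mono_USp]
    · rw [MR_pow_ten hα hβ, Mono_TDT, Mono_SD]
    · rw [MR_pow_ten hα hβ, MR_pow_six hα hβ, Mono_TDT, Mono_UDU]
      cases X <;> exact commute_diagonal _ _
  obtain ⟨θ, h1, h2, h3, h4⟩ := h.exists_hom
  exact ⟨θ, hα, hβ, h1, h2, h3, h4⟩

variable {X : Bool} {θ θ' : G →* Matrix (Fin 6) (Fin 6) R} {α β : R}

theorem IsM.unique (h : IsM X θ α β) (h' : IsM X θ' α β) : θ = θ' :=
  hom_ext (h.t.trans h'.t.symm) (h.u.trans h'.u.symm) (h.s.trans h'.s.symm) (h.r.trans h'.r.symm)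

theorem IsM.map (f : R →+* R') (h : IsM X θ α β) : IsM X (mapRep f θ) (f α) (f β) := by
  refine ⟨by rw [← map_pow, h.hα, map_one], by rw [← map_pow, h.hβ, map_one], ?_, ?_, ?_, ?_⟩
  · rw [mapRep_apply, h.t]
    ext i j
    fin_cases i <;> fin_cases j <;> simp [MT]
  · rw [mapRep_apply, h.u]
    ext i j
    cases X <;> fin_cases i <;> fin_cases j <;> simp [MU]
  · rw [mapRep_apply, h.s]
    ext i j
    fin_cases i <;> fin_cases j <;> simp [MS]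
  · rw [mapRep_apply, h.r]
    ext i j
    fin_cases i <;> fin_cases j <;> simp [MR]

theorem IsM.ga_eq (h : IsM X θ α β) : θ ga = diagonal ![α, α ^ 4, 1, 1, 1, 1] := by
  rw [ga, map_pow, h.r, MR_pow_six h.hα h.hβ]

theorem IsM.gb_eq (h : IsM X θ α β) : θ gb = diagonal ![β, β ^ 2, 1, 1, 1, 1] := by
  rw [gb, map_pow, h.r, MR_pow_ten h.hα h.hβ]

theorem IsM.gc_eq (h : IsM X θ α β) : θ gc = MC R := by
  rw [gc, map_pow, h.r, MR_pow_fifteen h.hα h.hβ]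

theorem IsM.gsp_eq (h : IsM X θ α β) : θ gsp = MSp R := by
  rw [gsp, map_mul, h.s, h.gc_eq, Mono_SC]

theorem IsM.gbZ_eq (h : IsM X θ α β) : θ gbZ = MZ β X := by
  have h1 : θ gt⁻¹ = MT R := left_inv_eq_right_inv (a := MT R)
    (by rw [← h.t, ← map_mul, inv_mul_cancel, map_one]) Mono_TT
  have h2 : θ gu⁻¹ = (MU R X)ᵀ := left_inv_eq_right_inv (a := MU R X)
    (by rw [← h.u, ← map_mul, inv_mul_cancel, map_one]) (Mono_UU X)
  rw [gbZ, gbB, map_mul, map_mul, map_mul, map_mul, h1, h2, h.t, h.u, h.gb_eq, Mono_TDT, Mono_UDU]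

/-- inclusion of block `i` -/
def blk (R : Type) [CommRing R] (i : Fin 3) : Matrix (Fin 6) (Fin 2) R :=
  Matrix.of fun p q => if p.val = 2 * i.val + q.val then 1 else 0

theorem blk_zero : blk R 0 = !![1, 0; 0, 1; 0, 0; 0, 0; 0, 0; 0, 0] := by
  ext i j
  fin_cases i <;> fin_cases j <;> simp [blk]

theorem blk_one : blk R 1 = !![0, 0; 0, 0; 1, 0; 0, 1; 0, 0; 0, 0] := by
  ext i j
  fin_cases i <;> fin_cases j <;> simp [blk]

theorem blk_two : blk R 2 = !![0, 0; 0, 0; 0, 0; 0, 0; 1, 0; 0, 1] := by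
  ext i j
  fin_cases i <;> fin_cases j <;> simp [blk]

end Crest.Agent.R251
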